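import Vale.Agent.Lib.P319.Score

/-!
# P319: an unconditional deterministic splitting step for `p ≡ 3 (mod 4)` and even degree

Let `p ≡ 3 (mod 4)` and let `f = ∏_{a ∈ S} (X - a)` be a product of an even, positive number `n` of
distinct linear factors over `𝔽_p`.  With the explicit polynomial `T = ∑_{b ∈ S} (X - b)^((p-1)/2)`
(a symmetric function of the roots), one of the `2n - 1` polynomials `gcd(f, T - v)`, `|v| ≤ n - 1`,
is a proper factor of `f`.
-/

open Polynomial

namespace Vale.Agent.Results.P319.EvenDegreeSplit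

open Vale.Agent.Lib.P319

theorem result (p : ℕ) [Fact p.Prime] (hp : p % 4 = 3) (S : Finset (ZMod p))
    (hS : Even S.card) (hne : S.Nonempty) :
    ∃ v : ℤ, |v| ≤ (S.card : ℤ) - 1 ∧
      0 < (EuclideanDomain.gcd (∏ a ∈ S, (X - C a))
        (∑ b ∈ S, (X - C b) ^ ((p - 1) / 2) - C ((v : ℤ) : ZMod p))).natDegree ∧
      (EuclideanDomain.gcd (∏ a ∈ S, (X - C a))
        (∑ b ∈ S, (X - C b) ^ ((p - 1) / 2) - C ((v : ℤ) : ZMod p))).natDegree < S.card := by
  obtain ⟨a, ha, a', ha', hdiff⟩ := exists_scores hp S hS hne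
  refine ⟨score S a, abs_score_le S ha, ?_⟩
  set f : (ZMod p)[X] := ∏ a ∈ S, (X - C a) with hf
  set h : (ZMod p)[X] := ∑ b ∈ S, (X - C b) ^ ((p - 1) / 2) - C ((score S a : ℤ) : ZMod p) with hh
  have hmonic : f.Monic := monic_prod_of_monic _ _ fun b _ => monic_X_sub_C b
  have hf0 : f ≠ 0 := hmonic.ne_zero
  have hdeg : f.natDegree = S.card := by
    rw [hf, natDegree_prod_of_monic _ _ fun b _ => monic_X_sub_C b]
    simp
  have heval : ∀ x, h.eval x = ((score S x : ℤ) : ZMod p) - ((score S a : ℤ) : ZMod p) := by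
    intro x
    rw [hh, eval_sub, eval_C]
    have := eval_tracePoly hp S x
    unfold tracePoly at this
    rw [this]
  have hg0 : EuclideanDomain.gcd f h ≠ 0 := by
    intro h0
    have := EuclideanDomain.gcd_dvd_left f h
    rw [h0, zero_dvd_iff] at this
    exact hf0 this
  constructor
  · -- `X - a` divides both
    have h1 : (X - C a) ∣ f := Finset.dvd_prod_of_mem (fun b => X - C b) ha
    have h2 : (X - C a) ∣ h := by
      rw [dvd_iff_isRoot, IsRoot, heval, sub_self]
    have h3 : (X - C a) ∣ EuclideanDomain.gcd f h := EuclideanDomain.dvd_gcd h1 h2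
    have h4 := natDegree_le_of_dvd h3 hg0
    rw [natDegree_X_sub_C] at h4
    omega
  · have h1 := natDegree_le_of_dvd (EuclideanDomain.gcd_dvd_left f h) hf0
    rw [hdeg] at h1
    rcases lt_or_eq_of_le h1 with h2 | h2
    · exact h2
    · exfalso
      have hassoc : Associated (EuclideanDomain.gcd f h) f :=
        associated_of_dvd_of_natDegree_le (EuclideanDomain.gcd_dvd_left f h) hf0
          (by rw [hdeg, h2])
      have h3 : f ∣ h := hassoc.symm.dvd.trans (EuclideanDomain.gcd_dvd_right f h)
      have h4 : (X - C a') ∣ h := (Finset.dvd_prod_of_mem (fun b => X - C b) ha').trans h3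
      rw [dvd_iff_isRoot, IsRoot, heval, sub_eq_zero] at h4
      exact hdiff h4

end Vale.Agent.Results.P319.EvenDegreeSplit
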